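import Vale.Agent.P098.Six.S17.Root

/-!
# P098, six dimensions: checked pieces of the tree
-/

namespace Vale.Agent.P098.Six.S17

/-- A piece of the tree. -/
noncomputable def tree22 : Tree LeafX :=
  .s2
    (.s0
    (.s0
    (.s1
    (.leaf (.box ⟨104, 1, -512, 14, 21, 65, 159103, 0, 0, 0, 0, 0, 0⟩ ⟨0, 0, 0, 0, 0, 0, 213916, 0, 0, 0, 0, 0, 0⟩ ⟨0, 0, 0, 0, 0, 0, 213916, 0, 0, 0, 0, 0, 0⟩ ⟨0, 0, 0, 0, 0, 0, 326344, 0, 0, 0, 0, 0, 0⟩ ⟨0, 0, 0, 0, 0, 0, 326344, 0, 0, 0, 0, 0, 0⟩ ⟨174, 0, -876, 6, 9, 113, 687868, 0, 0, 0, 0, 0, 0⟩))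
    (.leaf (.box ⟨104, 0, -512, 9, 21, 69, 146616, 0, 0, 0, 0, 0, 0⟩ ⟨0, 0, 0, 0, 0, 0, 198969, 0, 0, 0, 0, 0, 0⟩ ⟨0, 0, 0, 0, 0, 0, 198969, 0, 0, 0, 0, 0, 0⟩ ⟨0, 0, 0, 0, 0, 0, 309473, 0, 0, 0, 0, 0, 0⟩ ⟨0, 0, 0, 0, 0, 0, 309473, 0, 0, 0, 0, 0, 0⟩ ⟨270, 0, -1423, 6, 13, 201, 696048, 0, 0, 0, 0, 0, 0⟩)))
    (.s1
    (.leaf (.box ⟨164, 2, -512, 17, 20, 83, 209330, 0, 0, 0, 0, 0, 0⟩ ⟨0, 0, 0, 0, 0, 0, 280668, 0, 0, 0, 0, 0, 0⟩ ⟨0, 0, 0, 0, 0, 0, 280668, 0, 0, 0, 0, 0, 0⟩ ⟨0, 0, 0, 0, 0, 0, 425762, 0, 0, 0, 0, 0, 0⟩ ⟨0, 0, 0, 0, 0, 0, 425762, 0, 0, 0, 0, 0, 0⟩ ⟨225, 1, -865, 6, 8, 138, 881424, 0, 0, 0, 0, 0, 0⟩))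
    (.leaf (.box ⟨127, 0, -512, 11, 19, 86, 194137, 0, 0, 0, 0, 0, 0⟩ ⟨0, 0, 0, 0, 0, 0, 262700, 0, 0, 0, 0, 0, 0⟩ ⟨0, 0, 0, 0, 0, 0, 262700, 0, 0, 0, 0, 0, 0⟩ ⟨0, 0, 0, 0, 0, 0, 406132, 0, 0, 0, 0, 0, 0⟩ ⟨0, 0, 0, 0, 0, 0, 406132, 0, 0, 0, 0, 0, 0⟩ ⟨263, 0, -1270, 6, 10, 213, 894548, 0, 0, 0, 0, 0, 0⟩))))
    (.s2
    (.leaf (.box ⟨259, 4, -512, 29, 16, 123, 259487, 0, 0, 0, 0, 0, 0⟩ ⟨0, 0, 0, 0, 0, 0, 349718, 0, 0, 0, 0, 0, 0⟩ ⟨0, 0, 0, 0, 0, 0, 349718, 0, 0, 0, 0, 0, 0⟩ ⟨0, 0, 0, 0, 0, 0, 536154, 0, 0, 0, 0, 0, 0⟩ ⟨0, 0, 0, 0, 0, 0, 536154, 0, 0, 0, 0, 0, 0⟩ ⟨235, 1, -512, 7, 3, 117, 1148331, 0, 0, 0, 0, 0, 0⟩))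
    (.s0
    (.leaf (.box ⟨252, 1, -512, 23, 10, 124, 277042, 0, 0, 0, 0, 0, 0⟩ ⟨0, 0, 0, 0, 0, 0, 373788, 0, 0, 0, 0, 0, 0⟩ ⟨0, 0, 0, 0, 0, 0, 373788, 0, 0, 0, 0, 0, 0⟩ ⟨0, 0, 0, 0, 0, 0, 574358, 0, 0, 0, 0, 0, 0⟩ ⟨0, 0, 0, 0, 0, 0, 574358, 0, 0, 0, 0, 0, 0⟩ ⟨256, 0, -594, 6, 2, 133, 1239411, 0, 0, 0, 0, 0, 0⟩))
    (.leaf (.box ⟨512, 4, -498, 43, -4, 197, 361949, 0, 0, 0, 0, 0, 0⟩ ⟨0, 0, 0, 0, 0, 0, 485515, 0, 0, 0, 0, 0, 0⟩ ⟨0, 0, 0, 0, 0, 0, 485515, 0, 0, 0, 0, 0, 0⟩ ⟨0, 0, 0, 0, 0, 0, 737181, 0, 0, 0, 0, 0, 0⟩ ⟨0, 0, 0, 0, 0, 0, 737181, 0, 0, 0, 0, 0, 0⟩ ⟨488, 1, -512, 10, -1, 175, 1530530, 0, 0, 0, 0, 0, 0⟩)))))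
    (.s2
    (.s0
    (.s0
    (.leaf (.box ⟨141, 0, -512, 10, 15, 74, 169901, 0, 0, 0, 0, 0, 0⟩ ⟨0, 0, 0, 0, 0, 0, 229747, 0, 0, 0, 0, 0, 0⟩ ⟨0, 0, 0, 0, 0, 0, 229747, 0, 0, 0, 0, 0, 0⟩ ⟨0, 0, 0, 0, 0, 0, 354678, 0, 0, 0, 0, 0, 0⟩ ⟨0, 0, 0, 0, 0, 0, 354678, 0, 0, 0, 0, 0, 0⟩ ⟨375, 0, -1365, 6, 9, 198, 777419, 0, 0, 73600630, 0, 0, 0⟩))
    (.leaf (.box ⟨277, -1, -512, 23, 10, 101, 224496, 0, 0, 0, 0, 0, 0⟩ ⟨0, 0, 0, 0, 0, 0, 303015, 0, 0, 0, 0, 0, 0⟩ ⟨0, 0, 0, 0, 0, 0, 303015, 0, 0, 0, 0, 0, 0⟩ ⟨0, 0, 0, 0, 0, 0, 466002, 0, 0, 0, 0, 0, 0⟩ ⟨0, 0, 0, 0, 0, 0, 466002, 0, 0, 0, 0, 0, 0⟩ ⟨243, 0, -641, 6, 3, 119, 1008408, 0, 0, 0, 0, 0, 0⟩)))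
    (.s2
    (.leaf (.box ⟨512, 1, -261, 54, -8, 118, 292148, 0, 0, 0, 0, 0, 0⟩ ⟨0, 0, 0, 0, 0, 0, 393063, 0, 0, 0, 0, 0, 0⟩ ⟨0, 0, 0, 0, 0, 0, 393063, 0, 0, 0, 0, 0, 0⟩ ⟨0, 0, 0, 0, 0, 0, 600483, 0, 0, 0, 0, 0, 0⟩ ⟨0, 0, 0, 0, 0, 0, 600483, 0, 0, 0, 0, 0, 0⟩ ⟨512, 0, -324, 13, -2, 114, 1271408, 0, 0, 0, 0, 0, 0⟩))
    (.leaf (.box ⟨512, -1, -107, 47, -10, 78, 297138, 0, 0, 0, 0, 15818092295, 0⟩ ⟨0, 0, 0, 0, 0, 0, 400095, 0, 0, 0, 0, 0, 0⟩ ⟨0, 0, 0, 0, 0, 0, 400095, 0, 0, 0, 0, 0, 0⟩ ⟨0, 0, 0, 0, 0, 0, 612228, 0, 0, 0, 0, 0, 0⟩ ⟨0, 0, 0, 0, 0, 0, 612228, 0, 0, 0, 0, 0, 0⟩ ⟨512, 0, -183, 11, -2, 81, 1303185, 0, 0, 0, 0, 18774981586, 0⟩))))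
    (.s0
    (.leaf (.box ⟨512, -4, -429, 51, 6, 84, 183145, 0, 0, 0, 0, 6186211354, 0⟩ ⟨0, 0, 0, 0, 0, 0, 247297, 0, 0, 0, 0, 0, 0⟩ ⟨0, 0, 0, 0, 0, 0, 247297, 0, 0, 0, 0, 0, 0⟩ ⟨0, 0, 0, 0, 0, 0, 380618, 0, 0, 0, 0, 0, 0⟩ ⟨0, 0, 0, 0, 0, 0, 380618, 0, 0, 0, 0, 0, 0⟩ ⟨353, -1, -512, 12, 2, 92, 825844, 0, 0, 0, 0, 5691392032, 0⟩))
    (.leaf (.skip 8 0))))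

/-- A piece of the tree. -/
noncomputable def tree23 : Tree LeafX :=
  .s1
    (.leaf (.skip 0 8))
    (.s2
    (.s0
    (.s2
    (.s1
    (.leaf (.box ⟨512, 14, -418, 56, -9, 223, 468775, 0, 0, 0, 0, 0, 23538718526⟩ ⟨0, 0, 0, 0, 0, 0, 624734, 0, 0, 0, 0, 0, 0⟩ ⟨0, 0, 0, 0, 0, 0, 624734, 0, 0, 0, 0, 0, 0⟩ ⟨0, 0, 0, 0, 0, 0, 936202, 0, 0, 0, 0, 0, 0⟩ ⟨0, 0, 0, 0, 0, 0, 936202, 0, 0, 0, 0, 0, 0⟩ ⟨512, 4, -362, 11, -2, 187, 1867032, 0, 0, 0, 0, 0, 0⟩))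
    (.leaf (.box ⟨512, 9, -495, 62, -20, 255, 450740, 0, 0, 0, 0, 0, 0⟩ ⟨0, 0, 0, 0, 0, 0, 603358, 0, 0, 0, 0, 0, 0⟩ ⟨0, 0, 0, 0, 0, 0, 603358, 0, 0, 0, 0, 0, 0⟩ ⟨0, 0, 0, 0, 0, 0, 912235, 0, 0, 0, 0, 0, 0⟩ ⟨0, 0, 0, 0, 0, 0, 912235, 0, 0, 0, 0, 0, 0⟩ ⟨512, 3, -506, 15, -5, 230, 1869066, 0, 0, 0, 0, 0, 0⟩)))
    (.s2
    (.leaf (.box ⟨512, 9, -120, 57, -26, 182, 463419, 0, 0, 0, 0, 0, 0⟩ ⟨0, 0, 0, 0, 0, 0, 618635, 0, 0, 0, 0, 0, 0⟩ ⟨0, 0, 0, 0, 0, 0, 618635, 0, 0, 0, 0, 0, 0⟩ ⟨0, 0, 0, 0, 0, 0, 930188, 0, 0, 0, 0, 0, 0⟩ ⟨0, 0, 0, 0, 0, 0, 930188, 0, 0, 0, 0, 0, 0⟩ ⟨512, 3, -117, 13, -5, 132, 1873917, 0, 0, 0, 0, 0, 0⟩))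
    (.leaf (.box ⟨512, 7, 57, 50, -24, 115, 456896, 0, 0, 0, 0, 0, 0⟩ ⟨0, 0, 0, 0, 0, 0, 609871, 0, 0, 0, 0, 0, 0⟩ ⟨0, 0, 0, 0, 0, 0, 609871, 0, 0, 0, 0, 0, 0⟩ ⟨0, 0, 0, 0, 0, 0, 916841, 0, 0, 0, 0, 0, 0⟩ ⟨0, 0, 0, 0, 0, 0, 916841, 0, 0, 0, 0, 0, 0⟩ ⟨512, 2, 15, 10, -5, 86, 1845996, 0, 0, 0, 0, 0, 0⟩))))
    (.leaf (.skip 0 8)))
    (.s2
    (.s0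
    (.s2
    (.leaf (.box ⟨512, 4, 137, 40, -21, 67, 442631, 0, 0, 0, 0, 17414556308, 0⟩ ⟨0, 0, 0, 0, 0, 0, 591807, 0, 0, 0, 0, 0, 0⟩ ⟨0, 0, 0, 0, 0, 0, 591807, 0, 0, 0, 0, 0, 0⟩ ⟨0, 0, 0, 0, 0, 0, 892646, 0, 0, 0, 0, 0, 0⟩ ⟨0, 0, 0, 0, 0, 0, 892646, 0, 0, 0, 0, 0, 0⟩ ⟨512, 1, 75, 8, -4, 49, 1815578, 0, 0, 0, 0, 17994461334, 0⟩))
    (.leaf (.skip 8 0)))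
    (.leaf (.skip 8 0)))
    (.leaf (.skip 8 0))))

/-- A piece of the tree. -/
noncomputable def tree24 : Tree LeafX :=
  .s1
    (.s0
    (.s0
    (.s2
    (.leaf (.box ⟨55, 0, -512, 6, 37, 66, 127184, 0, 0, 0, 0, 0, 0⟩ ⟨0, 0, 0, 0, 0, 0, 172780, 0, 0, 0, 0, 0, 0⟩ ⟨0, 0, 0, 0, 0, 0, 172780, 0, 0, 0, 0, 0, 0⟩ ⟨0, 0, 0, 0, 0, 0, 269335, 0, 0, 0, 0, 0, 0⟩ ⟨0, 0, 0, 0, 0, 0, 269335, 0, 0, 0, 0, 0, 0⟩ ⟨176, 0, -1545, 6, 27, 232, 610513, 0, 0, 0, 0, 0, 0⟩))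
    (.leaf (.box ⟨55, -1, -529, 6, 31, 68, 138842, 0, 0, 0, 0, 0, 0⟩ ⟨62, -1, -590, 6, 28, 78, 172663, 0, 0, 0, 0, 0, 0⟩ ⟨62, -1, -590, 6, 28, 78, 172663, 0, 0, 0, 0, 0, 0⟩ ⟨94, -1, -966, 6, 28, 134, 295759, 0, 0, 0, 0, 0, 0⟩ ⟨94, -1, -966, 6, 28, 134, 295759, 0, 0, 0, 0, 0, 0⟩ ⟨328, -1, -3224, 6, 26, 469, 1108149, 0, 0, 0, 0, 0, 0⟩)))
    (.leaf (.box ⟨54, 0, -512, 8, 32, 68, 146650, 0, 0, 0, 0, 0, 0⟩ ⟨53, 0, -512, 7, 27, 71, 181322, 0, 0, 0, 0, 0, 0⟩ ⟨53, 0, -512, 7, 27, 71, 181322, 0, 0, 0, 0, 0, 0⟩ ⟨80, 0, -676, 6, 22, 97, 307940, 0, 0, 0, 0, 0, 0⟩ ⟨80, 0, -676, 6, 22, 97, 307940, 0, 0, 0, 0, 0, 0⟩ ⟨249, 0, -2035, 6, 18, 306, 1136268, 0, 0, 0, 0, 0, 0⟩)))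
    (.leaf (.box ⟨57, 0, -512, 10, 33, 72, 155569, 0, 0, 0, 0, 0, 0⟩ ⟨58, 0, -512, 9, 27, 74, 191446, 0, 0, 0, 0, 0, 0⟩ ⟨58, 0, -512, 9, 27, 74, 191446, 0, 0, 0, 0, 0, 0⟩ ⟨63, 0, -547, 6, 18, 82, 323559, 0, 0, 0, 0, 0, 0⟩ ⟨63, 0, -547, 6, 18, 82, 323559, 0, 0, 0, 0, 0, 0⟩ ⟨226, 0, -1843, 6, 17, 286, 1187079, 0, 0, 0, 0, 0, 0⟩)))
    (.s0
    (.s0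
    (.s3
    (.leaf (.box ⟨54, -2, -512, 7, 33, 72, 141068, 0, 0, 0, 0, 0, 0⟩ ⟨0, 0, 0, 0, 0, 0, 200880, 0, 0, 0, 0, 0, 0⟩ ⟨0, 0, 0, 0, 0, 0, 200880, 0, 0, 0, 0, 0, 0⟩ ⟨0, 0, 0, 0, 0, 0, 348741, 0, 0, 0, 0, 0, 0⟩ ⟨0, 0, 0, 0, 0, 0, 348741, 0, 0, 0, 0, 0, 0⟩ ⟨432, -2, -2888, 6, 23, 492, 1321351, 0, 0, 0, 0, 0, 0⟩))
    (.leaf (.box ⟨62, -2, -512, 7, 37, 75, 138282, 0, 0, 0, 0, 0, 0⟩ ⟨66, -2, -512, 7, 31, 79, 172910, 0, 0, 0, 0, 0, 0⟩ ⟨66, -2, -512, 7, 31, 79, 172910, 0, 0, 0, 0, 0, 0⟩ ⟨94, -2, -662, 6, 24, 108, 294821, 0, 0, 0, 0, 0, 0⟩ ⟨94, -2, -662, 6, 24, 108, 294821, 0, 0, 0, 0, 0, 0⟩ ⟨353, -2, -2135, 6, 22, 369, 1093901, 0, 0, 0, 0, 0, 0⟩)))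
    (.s2
    (.leaf (.box ⟨69, -1, -512, 7, 41, 75, 131171, 0, 0, 0, 0, 0, 0⟩ ⟨0, 0, 0, 0, 0, 0, 179698, 0, 0, 0, 0, 0, 0⟩ ⟨0, 0, 0, 0, 0, 0, 179698, 0, 0, 0, 0, 0, 0⟩ ⟨0, 0, 0, 0, 0, 0, 285209, 0, 0, 0, 0, 0, 0⟩ ⟨0, 0, 0, 0, 0, 0, 285209, 0, 0, 0, 0, 0, 0⟩ ⟨232, -1, -1649, 6, 29, 291, 690852, 0, 0, 0, 0, 0, 0⟩))
    (.leaf (.box ⟨76, -2, -620, 6, 42, 91, 141072, 0, 0, 0, 0, 0, 0⟩ ⟨95, -2, -750, 6, 41, 114, 179898, 0, 0, 0, 0, 0, 0⟩ ⟨95, -2, -750, 6, 41, 114, 179898, 0, 0, 0, 0, 0, 0⟩ ⟨138, -2, -1150, 6, 38, 185, 310755, 0, 0, 0, 0, 0, 0⟩ ⟨138, -2, -1150, 6, 38, 185, 310755, 0, 0, 0, 0, 0, 0⟩ ⟨442, -2, -3864, 6, 35, 655, 1173177, 0, 0, 0, 0, 0, 0⟩))))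
    (.s3
    (.leaf (.box ⟨56, -1, -512, 7, 33, 77, 162950, 0, 0, 0, 0, 0, 0⟩ ⟨60, -1, -512, 6, 25, 81, 221476, 0, 0, 0, 0, 0, 0⟩ ⟨60, -1, -512, 6, 25, 81, 221476, 0, 0, 0, 0, 0, 0⟩ ⟨98, -1, -802, 6, 23, 133, 391541, 0, 0, 0, 0, 0, 0⟩ ⟨98, -1, -802, 6, 23, 133, 391541, 0, 0, 0, 0, 0, 0⟩ ⟨547, -1, -4111, 6, 20, 720, 2356071, 0, 0, 0, 0, 0, 0⟩))
    (.leaf (.box ⟨61, -2, -512, 9, 38, 80, 152986, 0, 0, 0, 0, 0, 0⟩ ⟨65, -2, -512, 8, 31, 83, 190684, 0, 0, 0, 0, 0, 0⟩ ⟨65, -2, -512, 8, 31, 83, 190684, 0, 0, 0, 0, 0, 0⟩ ⟨92, -1, -661, 6, 25, 112, 323165, 0, 0, 0, 0, 0, 0⟩ ⟨92, -1, -661, 6, 25, 112, 323165, 0, 0, 0, 0, 0, 0⟩ ⟨249, -1, -1756, 6, 18, 312, 1191520, 0, 0, 0, 0, 0, 0⟩))))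

/-- A piece of the tree. -/
noncomputable def tree25 : Tree LeafX :=
  .s1
    (.s0
    (.s3
    (.leaf (.box ⟨59, -1, -590, 6, 28, 76, 145467, 0, 0, 0, 0, 0, 0⟩ ⟨0, 0, 0, 0, 0, 0, 206155, 0, 0, 0, 0, 0, 0⟩ ⟨0, 0, 0, 0, 0, 0, 206155, 0, 0, 0, 0, 0, 0⟩ ⟨0, 0, 0, 0, 0, 0, 353729, 0, 0, 0, 0, 0, 0⟩ ⟨0, 0, 0, 0, 0, 0, 353729, 0, 0, 0, 0, 0, 0⟩ ⟨355, -1, -3701, 6, 22, 538, 1244810, 0, 0, 0, 0, 0, 0⟩))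
    (.leaf (.box ⟨62, -1, -552, 6, 29, 73, 142638, 0, 0, 0, 0, 0, 0⟩ ⟨68, -1, -606, 6, 26, 82, 177802, 0, 0, 0, 0, 0, 0⟩ ⟨68, -1, -606, 6, 26, 82, 177802, 0, 0, 0, 0, 0, 0⟩ ⟨104, -1, -1017, 6, 26, 143, 305365, 0, 0, 0, 0, 0, 0⟩ ⟨104, -1, -1017, 6, 26, 143, 305365, 0, 0, 0, 0, 0, 0⟩ ⟨316, -1, -3082, 6, 22, 449, 1148279, 0, 0, 0, 0, 0, 0⟩)))
    (.leaf (.box ⟨56, -1, -512, 7, 26, 72, 157455, 0, 0, 0, 0, 0, 0⟩ ⟨54, -1, -519, 6, 22, 75, 196705, 0, 0, 0, 0, 0, 0⟩ ⟨54, -1, -519, 6, 22, 75, 196705, 0, 0, 0, 0, 0, 0⟩ ⟨82, -1, -804, 6, 20, 119, 340121, 0, 0, 0, 0, 0, 0⟩ ⟨82, -1, -804, 6, 20, 119, 340121, 0, 0, 0, 0, 0, 0⟩ ⟨300, -1, -3261, 6, 22, 499, 1282208, 0, 0, 0, 0, 0, 0⟩)))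
    (.s0
    (.s2
    (.s0
    (.leaf (.box ⟨69, -3, -575, 6, 37, 81, 135411, 0, 0, 0, 0, 0, 0⟩ ⟨81, -3, -742, 6, 38, 110, 174487, 0, 0, 0, 0, 0, 0⟩ ⟨81, -3, -742, 6, 38, 110, 174487, 0, 0, 0, 0, 0, 0⟩ ⟨133, -3, -1277, 6, 38, 198, 304835, 0, 0, 0, 0, 0, 0⟩ ⟨133, -3, -1277, 6, 38, 198, 304835, 0, 0, 0, 0, 0, 0⟩ ⟨448, -3, -4719, 6, 37, 770, 1170413, 0, 0, 0, 0, 0, 0⟩))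
    (.s1
    (.leaf (.box ⟨62, -2, -750, 6, 45, 106, 144462, 0, 0, 0, 0, 0, 0⟩ ⟨74, -2, -994, 6, 47, 146, 184539, 0, 0, 0, 0, 0, 0⟩ ⟨74, -2, -994, 6, 47, 146, 184539, 0, 0, 0, 0, 0, 0⟩ ⟨107, -2, -1614, 6, 45, 248, 321910, 0, 0, 0, 0, 0, 0⟩ ⟨107, -2, -1614, 6, 45, 248, 321910, 0, 0, 0, 0, 0, 0⟩ ⟨252, -2, -4128, 6, 31, 663, 1233588, 0, 0, 0, 0, 0, 0⟩))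
    (.leaf (.box ⟨67, -3, -745, 6, 50, 111, 142941, 0, 0, 0, 0, 0, 0⟩ ⟨69, -3, -899, 6, 47, 140, 184700, 0, 0, 0, 0, 0, 0⟩ ⟨69, -3, -899, 6, 47, 140, 184700, 0, 0, 0, 0, 0, 0⟩ ⟨97, -3, -1299, 6, 39, 211, 326740, 0, 0, 0, 0, 0, 0⟩ ⟨97, -3, -1299, 6, 39, 211, 326740, 0, 0, 0, 0, 0, 0⟩ ⟨375, -3, -5691, 6, 45, 968, 1273224, 0, 0, 0, 0, 0, 0⟩))))
    (.leaf (.box ⟨67, -4, -512, 8, 31, 74, 142645, 0, 0, 0, 0, 0, 0⟩ ⟨60, -3, -512, 6, 25, 77, 183458, 0, 0, 0, 0, 0, 0⟩ ⟨60, -3, -512, 6, 25, 77, 183458, 0, 0, 0, 0, 0, 0⟩ ⟨79, -3, -800, 6, 22, 125, 322007, 0, 0, 0, 0, 0, 0⟩ ⟨79, -3, -800, 6, 22, 125, 322007, 0, 0, 0, 0, 0, 0⟩ ⟨275, -3, -3367, 6, 25, 546, 1245973, 0, 0, 0, 0, 0, 0⟩)))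
    (.s2
    (.s3
    (.leaf (.box ⟨64, -2, -612, 6, 35, 92, 160652, 0, 0, 0, 0, 0, 0⟩ ⟨0, 0, 0, 0, 0, 0, 229705, 0, 0, 0, 0, 0, 0⟩ ⟨0, 0, 0, 0, 0, 0, 229705, 0, 0, 0, 0, 0, 0⟩ ⟨0, 0, 0, 0, 0, 0, 402866, 0, 0, 0, 0, 0, 0⟩ ⟨0, 0, 0, 0, 0, 0, 402866, 0, 0, 0, 0, 0, 0⟩ ⟨593, -2, -7029, 6, 42, 1185, 1636640, 0, 0, 0, 0, 0, 0⟩))
    (.s1
    (.leaf (.box ⟨84, -2, -1040, 6, 63, 157, 157984, 0, 0, 0, 0, 0, 0⟩ ⟨92, -2, -1189, 6, 58, 185, 198928, 0, 0, 0, 0, 0, 0⟩ ⟨92, -2, -1189, 6, 58, 185, 198928, 0, 0, 0, 0, 0, 0⟩ ⟨137, -2, -1999, 6, 58, 321, 343325, 0, 0, 0, 0, 0, 0⟩ ⟨137, -2, -1999, 6, 58, 321, 343325, 0, 0, 0, 0, 0, 0⟩ ⟨451, -2, -7602, 6, 59, 1262, 1305447, 0, 0, 0, 0, 0, 0⟩))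
    (.leaf (.box ⟨74, -3, -941, 6, 64, 149, 157492, 0, 0, 0, 0, 0, 0⟩ ⟨82, -3, -1133, 6, 61, 185, 199496, 0, 0, 0, 0, 0, 0⟩ ⟨82, -3, -1133, 6, 61, 185, 199496, 0, 0, 0, 0, 0, 0⟩ ⟨130, -3, -1869, 6, 59, 316, 349015, 0, 0, 0, 0, 0, 0⟩ ⟨130, -3, -1869, 6, 59, 316, 349015, 0, 0, 0, 0, 0, 0⟩ ⟨299, -3, -4718, 6, 39, 827, 1346484, 0, 0, 0, 0, 0, 0⟩))))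
    (.leaf (.box ⟨59, -4, -512, 9, 30, 78, 161707, 0, 0, 0, 0, 0, 0⟩ ⟨57, -3, -512, 7, 24, 81, 207864, 0, 0, 0, 0, 0, 0⟩ ⟨57, -3, -512, 7, 24, 81, 207864, 0, 0, 0, 0, 0, 0⟩ ⟨73, -2, -775, 6, 21, 126, 363889, 0, 0, 0, 0, 0, 0⟩ ⟨73, -2, -775, 6, 21, 126, 363889, 0, 0, 0, 0, 0, 0⟩ ⟨234, -2, -2819, 6, 20, 474, 1403489, 0, 0, 0, 0, 0, 0⟩))))

/-- A piece of the tree. -/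
noncomputable def tree26 : Tree LeafX :=
  .s2
    (.s1
    (.leaf (.box ⟨72, 1, -512, 13, 38, 81, 159378, 0, 0, 0, 0, 0, 0⟩ ⟨0, 0, 0, 0, 0, 0, 215373, 0, 0, 0, 0, 0, 0⟩ ⟨0, 0, 0, 0, 0, 0, 215373, 0, 0, 0, 0, 0, 0⟩ ⟨0, 0, 0, 0, 0, 0, 332022, 0, 0, 0, 0, 0, 0⟩ ⟨0, 0, 0, 0, 0, 0, 332022, 0, 0, 0, 0, 0, 0⟩ ⟨110, 0, -883, 6, 15, 148, 724330, 0, 0, 0, 0, 0, 0⟩))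
    (.leaf (.box ⟨83, -2, -512, 13, 38, 87, 166088, 0, 0, 0, 0, 0, 0⟩ ⟨77, -1, -512, 10, 31, 89, 209601, 0, 0, 0, 0, 0, 0⟩ ⟨77, -1, -512, 10, 31, 89, 209601, 0, 0, 0, 0, 0, 0⟩ ⟨75, -1, -512, 7, 19, 92, 356586, 0, 0, 0, 0, 0, 0⟩ ⟨75, -1, -512, 7, 19, 92, 356586, 0, 0, 0, 0, 0, 0⟩ ⟨221, -1, -1533, 6, 16, 285, 1308513, 0, 0, 0, 0, 0, 0⟩)))
    (.s1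
    (.leaf (.box ⟨83, -1, -512, 10, 29, 82, 163825, 0, 0, 0, 0, 0, 0⟩ ⟨0, 0, 0, 0, 0, 0, 223168, 0, 0, 0, 0, 0, 0⟩ ⟨0, 0, 0, 0, 0, 0, 223168, 0, 0, 0, 0, 0, 0⟩ ⟨0, 0, 0, 0, 0, 0, 349919, 0, 0, 0, 0, 0, 0⟩ ⟨0, 0, 0, 0, 0, 0, 349919, 0, 0, 0, 0, 0, 0⟩ ⟨177, -1, -1375, 6, 16, 231, 809928, 0, 0, 0, 0, 0, 0⟩))
    (.s3
    (.leaf (.box ⟨74, -2, -512, 8, 29, 86, 181527, 0, 0, 0, 0, 0, 0⟩ ⟨0, 0, 0, 0, 0, 0, 259371, 0, 0, 0, 0, 0, 0⟩ ⟨0, 0, 0, 0, 0, 0, 259371, 0, 0, 0, 0, 0, 0⟩ ⟨0, 0, 0, 0, 0, 0, 454099, 0, 0, 0, 0, 0, 0⟩ ⟨0, 0, 0, 0, 0, 0, 454099, 0, 0, 0, 0, 0, 0⟩ ⟨468, -2, -4323, 6, 25, 780, 1822027, 0, 0, 0, 0, 0, 0⟩))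
    (.leaf (.box ⟨75, -2, -512, 9, 33, 88, 177791, 0, 0, 0, 0, 0, 0⟩ ⟨75, -2, -512, 7, 26, 90, 224287, 0, 0, 0, 0, 0, 0⟩ ⟨75, -2, -512, 7, 26, 90, 224287, 0, 0, 0, 0, 0, 0⟩ ⟨112, -2, -856, 6, 25, 153, 386739, 0, 0, 0, 0, 0, 0⟩ ⟨112, -2, -856, 6, 25, 153, 386739, 0, 0, 0, 0, 0, 0⟩ ⟨392, -2, -3425, 6, 27, 625, 1463554, 0, 0, 0, 0, 0, 0⟩))))

/-- A piece of the tree. -/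
noncomputable def tree27 : Tree LeafX :=
  .s0
    (.leaf (.box ⟨96, -1, -512, 27, 33, 98, 194217, 0, 0, 0, 0, 0, 0⟩ ⟨0, 0, 0, 0, 0, 0, 263941, 0, 0, 0, 0, 0, 0⟩ ⟨0, 0, 0, 0, 0, 0, 263941, 0, 0, 0, 0, 0, 0⟩ ⟨0, 0, 0, 0, 0, 0, 411764, 0, 0, 0, 0, 0, 0⟩ ⟨0, 0, 0, 0, 0, 0, 411764, 0, 0, 0, 0, 0, 0⟩ ⟨98, 0, -552, 6, 8, 109, 935953, 0, 0, 0, 0, 0, 0⟩))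
    (.leaf (.box ⟨122, 1, -512, 30, 27, 115, 254608, 0, 0, 0, 0, 0, 0⟩ ⟨0, 0, 0, 0, 0, 0, 342944, 0, 0, 0, 0, 0, 0⟩ ⟨0, 0, 0, 0, 0, 0, 342944, 0, 0, 0, 0, 0, 0⟩ ⟨0, 0, 0, 0, 0, 0, 525138, 0, 0, 0, 0, 0, 0⟩ ⟨0, 0, 0, 0, 0, 0, 525138, 0, 0, 0, 0, 0, 0⟩ ⟨95, 0, -512, 7, 6, 115, 1120330, 0, 0, 0, 0, 0, 0⟩))

/-- A piece of the tree. -/
noncomputable def tree28 : Tree LeafX :=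
  .s0
    (.s1
    (.s2
    (.s0
    (.s3
    (.leaf (.box ⟨86, -4, -512, 9, 42, 85, 141549, 0, 0, 0, 0, 0, 0⟩ ⟨0, 0, 0, 0, 0, 0, 202451, 0, 0, 0, 0, 0, 0⟩ ⟨0, 0, 0, 0, 0, 0, 202451, 0, 0, 0, 0, 0, 0⟩ ⟨0, 0, 0, 0, 0, 0, 355333, 0, 0, 0, 0, 0, 0⟩ ⟨0, 0, 0, 0, 0, 0, 355333, 0, 0, 0, 0, 0, 0⟩ ⟨438, -3, -2533, 6, 22, 503, 1451260, 0, 0, 0, 0, 0, 0⟩))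
    (.s2
    (.leaf (.box ⟨84, -3, -512, 8, 52, 90, 128512, 0, 0, 0, 0, 0, 0⟩ ⟨0, 0, 0, 0, 0, 0, 176065, 0, 0, 0, 0, 0, 0⟩ ⟨0, 0, 0, 0, 0, 0, 176065, 0, 0, 0, 0, 0, 0⟩ ⟨0, 0, 0, 0, 0, 0, 279479, 0, 0, 0, 0, 0, 0⟩ ⟨0, 0, 0, 0, 0, 0, 279479, 0, 0, 0, 0, 0, 0⟩ ⟨198, -2, -1331, 6, 29, 281, 677296, 0, 0, 0, 0, 0, 0⟩))
    (.leaf (.box ⟨79, -5, -512, 8, 45, 88, 139137, 0, 0, 0, 0, 0, 0⟩ ⟨73, -4, -512, 7, 36, 91, 176530, 0, 0, 0, 0, 0, 0⟩ ⟨73, -4, -512, 7, 36, 91, 176530, 0, 0, 0, 0, 0, 0⟩ ⟨106, -3, -824, 6, 34, 154, 309576, 0, 0, 0, 0, 0, 0⟩ ⟨106, -3, -824, 6, 34, 154, 309576, 0, 0, 0, 0, 0, 0⟩ ⟨338, -3, -2787, 6, 30, 547, 1196920, 0, 0, 0, 0, 0, 0⟩))))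
    (.leaf (.box ⟨100, -4, -512, 13, 47, 96, 152662, 0, 0, 0, 0, 0, 0⟩ ⟨0, 0, 0, 0, 0, 0, 209828, 0, 0, 0, 0, 0, 0⟩ ⟨0, 0, 0, 0, 0, 0, 209828, 0, 0, 0, 0, 0, 0⟩ ⟨0, 0, 0, 0, 0, 0, 335434, 0, 0, 0, 0, 0, 0⟩ ⟨0, 0, 0, 0, 0, 0, 335434, 0, 0, 0, 0, 0, 0⟩ ⟨180, -2, -1032, 6, 18, 215, 835686, 0, 0, 0, 0, 0, 0⟩)))
    (.s0
    (.s3
    (.s2
    (.leaf (.box ⟨70, -6, -512, 9, 38, 82, 148860, 0, 0, 0, 0, 0, 0⟩ ⟨67, -4, -548, 6, 30, 92, 208388, 0, 0, 0, 0, 0, 0⟩ ⟨67, -4, -548, 6, 30, 92, 208388, 0, 0, 0, 0, 0, 0⟩ ⟨97, -4, -907, 6, 27, 159, 387754, 0, 0, 0, 0, 0, 0⟩ ⟨97, -4, -907, 6, 27, 159, 387754, 0, 0, 0, 0, 0, 0⟩ ⟨345, -4, -3716, 6, 17, 681, 2502662, 0, 0, 0, 0, 0, 0⟩))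
    (.leaf (.box ⟨61, -7, -512, 11, 38, 80, 153840, 0, 0, 0, 0, 0, 0⟩ ⟨0, 0, 0, 0, 0, 0, 222012, 0, 0, 0, 0, 0, 0⟩ ⟨0, 0, 0, 0, 0, 0, 222012, 0, 0, 0, 0, 0, 0⟩ ⟨0, 0, 0, 0, 0, 0, 398680, 0, 0, 0, 0, 0, 0⟩ ⟨0, 0, 0, 0, 0, 0, 398680, 0, 0, 0, 0, 0, 0⟩ ⟨256, -3, -3143, 6, 19, 559, 1952022, 0, 0, 0, 0, 0, 0⟩)))
    (.s0
    (.s2
    (.s0
    (.leaf (.box ⟨56, -6, -512, 8, 42, 83, 141305, 0, 0, 0, 0, 0, 0⟩ ⟨54, -5, -512, 7, 33, 86, 182039, 0, 0, 0, 0, 0, 0⟩ ⟨54, -5, -512, 7, 33, 86, 182039, 0, 0, 0, 0, 0, 0⟩ ⟨86, -4, -876, 6, 32, 154, 324184, 0, 0, 0, 0, 0, 0⟩ ⟨86, -4, -876, 6, 32, 154, 324184, 0, 0, 0, 0, 0, 0⟩ ⟨308, -4, -3459, 6, 33, 635, 1270731, 0, 0, 0, 0, 0, 0⟩))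
    (.s1
    (.leaf (.box ⟨57, -4, -761, 6, 58, 122, 149042, 0, 0, 0, 0, 0, 0⟩ ⟨59, -4, -814, 6, 48, 136, 191761, 0, 0, 0, 0, 0, 0⟩ ⟨59, -4, -814, 6, 48, 136, 191761, 0, 0, 0, 0, 0, 0⟩ ⟨99, -4, -1498, 6, 51, 260, 341118, 0, 0, 0, 0, 0, 0⟩ ⟨99, -4, -1498, 6, 51, 260, 341118, 0, 0, 0, 0, 0, 0⟩ ⟨351, -3, -5672, 6, 50, 1025, 1335798, 0, 0, 0, 0, 0, 0⟩))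
    (.leaf (.box ⟨40, -5, -512, 7, 46, 86, 141746, 0, 0, 0, 0, 0, 0⟩ ⟨0, 0, 0, 0, 0, 0, 196920, 0, 0, 0, 0, 0, 0⟩ ⟨0, 0, 0, 0, 0, 0, 196920, 0, 0, 0, 0, 0, 0⟩ ⟨0, 0, 0, 0, 0, 0, 322416, 0, 0, 0, 0, 0, 0⟩ ⟨0, 0, 0, 0, 0, 0, 322416, 0, 0, 0, 0, 0, 0⟩ ⟨180, -4, -2804, 6, 41, 529, 888935, 0, 0, 0, 0, 0, 0⟩))))
    (.leaf (.box ⟨48, -7, -512, 11, 44, 81, 140383, 0, 0, 0, 0, 0, 0⟩ ⟨0, 0, 0, 0, 0, 0, 194501, 0, 0, 0, 0, 0, 0⟩ ⟨0, 0, 0, 0, 0, 0, 194501, 0, 0, 0, 0, 0, 0⟩ ⟨0, 0, 0, 0, 0, 0, 316519, 0, 0, 0, 0, 0, 0⟩ ⟨0, 0, 0, 0, 0, 0, 316519, 0, 0, 0, 0, 0, 0⟩ ⟨126, -4, -1741, 6, 26, 310, 849345, 0, 0, 0, 0, 0, 0⟩)))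
    (.s2
    (.leaf (.box ⟨56, -6, -512, 9, 41, 87, 157663, 0, 0, 0, 0, 0, 0⟩ ⟨53, -5, -512, 8, 32, 90, 202511, 0, 0, 0, 0, 0, 0⟩ ⟨53, -5, -512, 8, 32, 90, 202511, 0, 0, 0, 0, 0, 0⟩ ⟨72, -3, -752, 6, 27, 137, 359709, 0, 0, 0, 0, 0, 0⟩ ⟨72, -3, -752, 6, 27, 137, 359709, 0, 0, 0, 0, 0, 0⟩ ⟨279, -3, -3195, 6, 30, 601, 1406766, 0, 0, 0, 0, 0, 0⟩))
    (.leaf (.box ⟨47, -6, -512, 11, 43, 85, 158496, 0, 0, 0, 0, 0, 0⟩ ⟨0, 0, 0, 0, 0, 0, 219374, 0, 0, 0, 0, 0, 0⟩ ⟨0, 0, 0, 0, 0, 0, 219374, 0, 0, 0, 0, 0, 0⟩ ⟨0, 0, 0, 0, 0, 0, 356183, 0, 0, 0, 0, 0, 0⟩ ⟨0, 0, 0, 0, 0, 0, 356183, 0, 0, 0, 0, 0, 0⟩ ⟨104, -3, -1428, 6, 20, 261, 946367, 0, 0, 0, 0, 0, 0⟩)))))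
    (.s2
    (.leaf (.box ⟨79, -6, -512, 11, 40, 93, 170242, 0, 0, 0, 0, 0, 0⟩ ⟨70, -4, -512, 9, 31, 95, 221800, 0, 0, 0, 0, 0, 0⟩ ⟨70, -4, -512, 9, 31, 95, 221800, 0, 0, 0, 0, 0, 0⟩ ⟨75, -3, -603, 6, 21, 115, 396901, 0, 0, 0, 0, 0, 0⟩ ⟨75, -3, -603, 6, 21, 115, 396901, 0, 0, 0, 0, 0, 0⟩ ⟨289, -3, -2616, 6, 23, 513, 1562345, 0, 0, 0, 0, 0, 0⟩))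
    (.leaf (.box ⟨70, -8, -512, 16, 41, 91, 174312, 0, 0, 0, 0, 0, 0⟩ ⟨0, 0, 0, 0, 0, 0, 242244, 0, 0, 0, 0, 0, 0⟩ ⟨0, 0, 0, 0, 0, 0, 242244, 0, 0, 0, 0, 0, 0⟩ ⟨0, 0, 0, 0, 0, 0, 396936, 0, 0, 0, 0, 0, 0⟩ ⟨0, 0, 0, 0, 0, 0, 396936, 0, 0, 0, 0, 0, 0⟩ ⟨119, -3, -1218, 6, 16, 233, 1098260, 0, 0, 0, 0, 0, 0⟩)))))
    (.s2
    (.leaf (.box ⟨156, -13, -512, 22, 63, 104, 127948, 0, 0, 0, 0, 0, 0⟩ ⟨0, 0, 0, 0, 0, 0, 178733, 0, 0, 0, 0, 0, 0⟩ ⟨0, 0, 0, 0, 0, 0, 178733, 0, 0, 0, 0, 0, 0⟩ ⟨0, 0, 0, 0, 0, 0, 296366, 0, 0, 0, 0, 0, 0⟩ ⟨0, 0, 0, 0, 0, 0, 296366, 0, 0, 0, 0, 0, 0⟩ ⟨207, -3, -928, 6, 18, 212, 866939, 0, 0, 0, 0, 0, 0⟩))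
    (.s2
    (.s0
    (.leaf (.box ⟨80, -16, -512, 19, 55, 88, 136588, 0, 0, 0, 0, 0, 0⟩ ⟨71, -10, -512, 13, 41, 93, 185732, 0, 0, 0, 0, 0, 0⟩ ⟨71, -10, -512, 13, 41, 93, 185732, 0, 0, 0, 0, 0, 0⟩ ⟨61, -5, -512, 7, 22, 97, 345937, 0, 0, 0, 0, 0, 0⟩ ⟨61, -5, -512, 7, 22, 97, 345937, 0, 0, 0, 0, 0, 0⟩ ⟨191, -4, -1825, 6, 20, 362, 1408339, 0, 0, 0, 0, 0, 0⟩))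
    (.leaf (.box ⟨80, -12, -512, 18, 53, 97, 164469, 0, 0, 0, 0, 0, 0⟩ ⟨0, 0, 0, 0, 0, 0, 231113, 0, 0, 0, 0, 0, 0⟩ ⟨0, 0, 0, 0, 0, 0, 231113, 0, 0, 0, 0, 0, 0⟩ ⟨0, 0, 0, 0, 0, 0, 388556, 0, 0, 0, 0, 0, 0⟩ ⟨0, 0, 0, 0, 0, 0, 388556, 0, 0, 0, 0, 0, 0⟩ ⟨121, -4, -1102, 6, 16, 229, 1218964, 0, 0, 0, 0, 0, 0⟩)))
    (.leaf (.box ⟨106, -22, -512, 31, 61, 88, 141809, 0, 0, 0, 0, 0, 0⟩ ⟨0, 0, 0, 0, 0, 0, 200481, 0, 0, 0, 0, 0, 0⟩ ⟨0, 0, 0, 0, 0, 0, 200481, 0, 0, 0, 0, 0, 0⟩ ⟨0, 0, 0, 0, 0, 0, 341963, 0, 0, 0, 0, 0, 0⟩ ⟨0, 0, 0, 0, 0, 0, 341963, 0, 0, 0, 0, 0, 0⟩ ⟨107, -4, -861, 6, 13, 168, 1162017, 0, 0, 0, 0, 0, 0⟩)))))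
    (.leaf (.box ⟨159, -17, -512, 55, 44, 118, 204942, 0, 0, 0, 0, 0, 0⟩ ⟨136, -13, -512, 40, 35, 118, 261865, 0, 0, 0, 0, 0, 0⟩ ⟨136, -13, -512, 40, 35, 118, 261865, 0, 0, 0, 0, 0, 0⟩ ⟨130, -8, -512, 24, 20, 120, 446816, 0, 0, 0, 0, 0, 0⟩ ⟨130, -8, -512, 24, 20, 120, 446816, 0, 0, 0, 0, 0, 0⟩ ⟨130, -2, -517, 6, 6, 122, 1651448, 0, 0, 0, 0, 0, 0⟩))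

/-- A piece of the tree. -/
noncomputable def tree29 : Tree LeafX :=
  .s1
    (.s2
    (.leaf (.box ⟨255, 18, -512, 84, 14, 161, 335224, 0, 0, 0, 0, 0, 0⟩ ⟨0, 0, 0, 0, 0, 0, 446957, 0, 0, 0, 0, 0, 0⟩ ⟨0, 0, 0, 0, 0, 0, 446957, 0, 0, 0, 0, 0, 0⟩ ⟨0, 0, 0, 0, 0, 0, 670407, 0, 0, 0, 0, 0, 0⟩ ⟨0, 0, 0, 0, 0, 0, 670407, 0, 0, 0, 0, 0, 0⟩ ⟨209, 6, -512, 20, 3, 153, 1340647, 0, 0, 0, 0, 0, 0⟩))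
    (.s0
    (.s2
    (.leaf (.box ⟨166, 2, -512, 30, 7, 153, 370136, 0, 0, 0, 0, 0, 0⟩ ⟨0, 0, 0, 0, 0, 0, 502028, 0, 0, 0, 0, 0, 0⟩ ⟨0, 0, 0, 0, 0, 0, 502028, 0, 0, 0, 0, 0, 0⟩ ⟨0, 0, 0, 0, 0, 0, 779950, 0, 0, 0, 0, 0, 0⟩ ⟨0, 0, 0, 0, 0, 0, 779950, 0, 0, 0, 0, 0, 0⟩ ⟨141, 1, -522, 6, 1, 147, 1747192, 0, 0, 0, 0, 0, 0⟩))
    (.leaf (.box ⟨223, 1, -512, 45, -1, 177, 406109, 0, 0, 0, 0, 0, 0⟩ ⟨0, 0, 0, 0, 0, 0, 552016, 0, 0, 0, 0, 0, 0⟩ ⟨0, 0, 0, 0, 0, 0, 552016, 0, 0, 0, 0, 0, 0⟩ ⟨0, 0, 0, 0, 0, 0, 861555, 0, 0, 0, 0, 0, 0⟩ ⟨0, 0, 0, 0, 0, 0, 861555, 0, 0, 0, 0, 0, 0⟩ ⟨205, 0, -512, 10, 0, 161, 1961394, 0, 0, 0, 0, 0, 0⟩)))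
    (.s2
    (.leaf (.box ⟨214, 7, -512, 45, -20, 222, 647971, 0, 0, 0, 0, 0, 0⟩ ⟨0, 0, 0, 0, 0, 0, 869485, 0, 0, 0, 0, 0, 0⟩ ⟨0, 0, 0, 0, 0, 0, 869485, 0, 0, 0, 0, 0, 0⟩ ⟨0, 0, 0, 0, 0, 0, 1321116, 0, 0, 0, 0, 0, 0⟩ ⟨0, 0, 0, 0, 0, 0, 1321116, 0, 0, 0, 0, 0, 0⟩ ⟨182, 2, -512, 9, -5, 201, 2749033, 0, 0, 0, 0, 0, 0⟩))
    (.leaf (.box ⟨429, 7, -512, 80, -46, 317, 700123, 0, 0, 0, 0, 0, 0⟩ ⟨0, 0, 0, 0, 0, 0, 941251, 0, 0, 0, 0, 0, 0⟩ ⟨0, 0, 0, 0, 0, 0, 941251, 0, 0, 0, 0, 0, 0⟩ ⟨0, 0, 0, 0, 0, 0, 1435723, 0, 0, 0, 0, 0, 0⟩ ⟨0, 0, 0, 0, 0, 0, 1435723, 0, 0, 0, 0, 0, 0⟩ ⟨406, 2, -512, 17, -9, 267, 3024712, 0, 0, 0, 0, 0, 0⟩)))))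
    (.s0
    (.leaf (.box ⟨186, -8, -512, 57, 25, 156, 322500, 0, 0, 0, 0, 0, 0⟩ ⟨0, 0, 0, 0, 0, 0, 438443, 0, 0, 0, 0, 0, 0⟩ ⟨0, 0, 0, 0, 0, 0, 438443, 0, 0, 0, 0, 0, 0⟩ ⟨0, 0, 0, 0, 0, 0, 684545, 0, 0, 0, 0, 0, 0⟩ ⟨0, 0, 0, 0, 0, 0, 684545, 0, 0, 0, 0, 0, 0⟩ ⟨130, -2, -512, 11, 5, 149, 1560427, 0, 0, 0, 0, 0, 0⟩))
    (.leaf (.box ⟨348, -2, -512, 71, -2, 212, 545586, 0, 0, 0, 0, 0, 0⟩ ⟨0, 0, 0, 0, 0, 0, 731173, 0, 0, 0, 0, 0, 0⟩ ⟨0, 0, 0, 0, 0, 0, 731173, 0, 0, 0, 0, 0, 0⟩ ⟨0, 0, 0, 0, 0, 0, 1108107, 0, 0, 0, 0, 0, 0⟩ ⟨0, 0, 0, 0, 0, 0, 1108107, 0, 0, 0, 0, 0, 0⟩ ⟨266, -1, -512, 17, 0, 191, 2287203, 0, 0, 0, 0, 0, 0⟩)))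

/-- A piece of the tree. -/
noncomputable def tree30 : Tree LeafX :=
  .s2
    (.s0
    (.s0
    (.s0
    (.leaf (.box ⟨95, -5, -512, 17, 29, 72, 142624, 0, 0, 0, 0, 0, 0⟩ ⟨0, 0, 0, 0, 0, 0, 195424, 0, 0, 0, 0, 0, 0⟩ ⟨0, 0, 0, 0, 0, 0, 195424, 0, 0, 0, 0, 0, 0⟩ ⟨0, 0, 0, 0, 0, 0, 310295, 0, 0, 0, 0, 0, 0⟩ ⟨0, 0, 0, 0, 0, 0, 310295, 0, 0, 0, 0, 0, 0⟩ ⟨145, -2, -884, 6, 10, 137, 752792, 0, 0, 0, 0, 0, 0⟩))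
    (.s1
    (.leaf (.box ⟨72, -2, -512, 9, 23, 76, 164445, 0, 0, 0, 0, 0, 0⟩ ⟨0, 0, 0, 0, 0, 0, 224895, 0, 0, 0, 0, 0, 0⟩ ⟨0, 0, 0, 0, 0, 0, 224895, 0, 0, 0, 0, 0, 0⟩ ⟨0, 0, 0, 0, 0, 0, 355618, 0, 0, 0, 0, 0, 0⟩ ⟨0, 0, 0, 0, 0, 0, 355618, 0, 0, 0, 0, 0, 0⟩ ⟨208, -1, -1918, 6, 18, 303, 849267, 0, 0, 0, 0, 0, 0⟩))
    (.leaf (.box ⟨57, -5, -512, 15, 32, 79, 164788, 0, 0, 0, 0, 0, 0⟩ ⟨0, 0, 0, 0, 0, 0, 226387, 0, 0, 0, 0, 0, 0⟩ ⟨0, 0, 0, 0, 0, 0, 226387, 0, 0, 0, 0, 0, 0⟩ ⟨0, 0, 0, 0, 0, 0, 361527, 0, 0, 0, 0, 0, 0⟩ ⟨0, 0, 0, 0, 0, 0, 361527, 0, 0, 0, 0, 0, 0⟩ ⟨87, -2, -1061, 6, 13, 179, 896961, 0, 0, 0, 0, 0, 0⟩))))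
    (.s2
    (.s1
    (.leaf (.box ⟨86, -1, -512, 9, 23, 86, 189498, 0, 0, 0, 0, 0, 0⟩ ⟨0, 0, 0, 0, 0, 0, 258808, 0, 0, 0, 0, 0, 0⟩ ⟨0, 0, 0, 0, 0, 0, 258808, 0, 0, 0, 0, 0, 0⟩ ⟨0, 0, 0, 0, 0, 0, 408055, 0, 0, 0, 0, 0, 0⟩ ⟨0, 0, 0, 0, 0, 0, 408055, 0, 0, 0, 0, 0, 0⟩ ⟨218, -1, -1567, 6, 14, 272, 963923, 0, 0, 0, 0, 0, 0⟩))
    (.leaf (.box ⟨78, -4, -512, 12, 30, 89, 189818, 0, 0, 0, 0, 0, 0⟩ ⟨0, 0, 0, 0, 0, 0, 260414, 0, 0, 0, 0, 0, 0⟩ ⟨0, 0, 0, 0, 0, 0, 260414, 0, 0, 0, 0, 0, 0⟩ ⟨0, 0, 0, 0, 0, 0, 414615, 0, 0, 0, 0, 0, 0⟩ ⟨0, 0, 0, 0, 0, 0, 414615, 0, 0, 0, 0, 0, 0⟩ ⟨173, -2, -1481, 6, 17, 270, 1016549, 0, 0, 0, 0, 0, 0⟩)))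
    (.s1
    (.leaf (.box ⟨91, -2, -512, 12, 21, 90, 208152, 0, 0, 0, 0, 0, 0⟩ ⟨0, 0, 0, 0, 0, 0, 282796, 0, 0, 0, 0, 0, 0⟩ ⟨0, 0, 0, 0, 0, 0, 282796, 0, 0, 0, 0, 0, 0⟩ ⟨0, 0, 0, 0, 0, 0, 440906, 0, 0, 0, 0, 0, 0⟩ ⟨0, 0, 0, 0, 0, 0, 440906, 0, 0, 0, 0, 0, 0⟩ ⟨223, -1, -1547, 6, 13, 277, 999998, 0, 0, 0, 0, 0, 0⟩))
    (.leaf (.box ⟨72, -4, -512, 14, 30, 90, 212580, 0, 0, 0, 0, 0, 0⟩ ⟨0, 0, 0, 0, 0, 0, 291166, 0, 0, 0, 0, 0, 0⟩ ⟨0, 0, 0, 0, 0, 0, 291166, 0, 0, 0, 0, 0, 0⟩ ⟨0, 0, 0, 0, 0, 0, 461929, 0, 0, 0, 0, 0, 0⟩ ⟨0, 0, 0, 0, 0, 0, 461929, 0, 0, 0, 0, 0, 0⟩ ⟨111, -1, -983, 6, 11, 182, 1117066, 0, 0, 0, 0, 0, 0⟩)))))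
    (.s0
    (.s2
    (.leaf (.box ⟨96, -3, -512, 18, 21, 107, 251718, 0, 0, 0, 0, 0, 0⟩ ⟨0, 0, 0, 0, 0, 0, 342961, 0, 0, 0, 0, 0, 0⟩ ⟨0, 0, 0, 0, 0, 0, 342961, 0, 0, 0, 0, 0, 0⟩ ⟨0, 0, 0, 0, 0, 0, 537959, 0, 0, 0, 0, 0, 0⟩ ⟨0, 0, 0, 0, 0, 0, 537959, 0, 0, 0, 0, 0, 0⟩ ⟨134, -1, -836, 6, 7, 173, 1246928, 0, 0, 0, 0, 0, 0⟩))
    (.s1
    (.leaf (.box ⟨140, -2, -512, 16, 15, 115, 276854, 0, 0, 0, 0, 0, 0⟩ ⟨0, 0, 0, 0, 0, 0, 374897, 0, 0, 0, 0, 0, 0⟩ ⟨0, 0, 0, 0, 0, 0, 374897, 0, 0, 0, 0, 0, 0⟩ ⟨0, 0, 0, 0, 0, 0, 580455, 0, 0, 0, 0, 0, 0⟩ ⟨0, 0, 0, 0, 0, 0, 580455, 0, 0, 0, 0, 0, 0⟩ ⟨163, -1, -865, 6, 5, 187, 1285058, 0, 0, 0, 0, 0, 0⟩))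
    (.leaf (.box ⟨87, -4, -512, 16, 25, 109, 284397, 108996367, 0, 0, 0, 0, 0⟩ ⟨0, 0, 0, 0, 0, 0, 388602, 0, 0, 0, 0, 0, 0⟩ ⟨0, 0, 0, 0, 0, 0, 388602, 0, 0, 0, 0, 0, 0⟩ ⟨0, 0, 0, 0, 0, 0, 613328, 0, 0, 0, 0, 0, 0⟩ ⟨0, 0, 0, 0, 0, 0, 613328, 0, 0, 0, 0, 0, 0⟩ ⟨124, -1, -1002, 6, 10, 214, 1454394, 0, 0, 0, 0, 0, 0⟩))))
    (.s1
    (.leaf (.box ⟨263, -1, -512, 25, 7, 149, 337965, 0, 0, 0, 0, 0, 0⟩ ⟨0, 0, 0, 0, 0, 0, 457948, 0, 0, 0, 0, 0, 0⟩ ⟨0, 0, 0, 0, 0, 0, 457948, 0, 0, 0, 0, 0, 0⟩ ⟨0, 0, 0, 0, 0, 0, 710011, 0, 0, 0, 0, 0, 0⟩ ⟨0, 0, 0, 0, 0, 0, 710011, 0, 0, 0, 0, 0, 0⟩ ⟨255, 0, -691, 6, 2, 184, 1579276, 0, 0, 0, 0, 0, 0⟩))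
    (.leaf (.box ⟨158, -4, -512, 23, 18, 136, 338169, 0, 0, 0, 0, 0, 0⟩ ⟨0, 0, 0, 0, 0, 0, 460390, 0, 0, 0, 0, 0, 0⟩ ⟨0, 0, 0, 0, 0, 0, 460390, 0, 0, 0, 0, 0, 0⟩ ⟨0, 0, 0, 0, 0, 0, 720956, 0, 0, 0, 0, 0, 0⟩ ⟨0, 0, 0, 0, 0, 0, 720956, 0, 0, 0, 0, 0, 0⟩ ⟨146, -1, -673, 6, 5, 170, 1661069, 0, 0, 0, 0, 0, 0⟩)))))
    (.s2
    (.s0
    (.s1
    (.leaf (.box ⟨146, -2, -512, 16, 25, 85, 170941, 0, 0, 0, 0, 0, 0⟩ ⟨0, 0, 0, 0, 0, 0, 231832, 0, 0, 0, 0, 0, 0⟩ ⟨0, 0, 0, 0, 0, 0, 231832, 0, 0, 0, 0, 0, 0⟩ ⟨0, 0, 0, 0, 0, 0, 360103, 0, 0, 0, 0, 0, 0⟩ ⟨0, 0, 0, 0, 0, 0, 360103, 0, 0, 0, 0, 0, 0⟩ ⟨189, -1, -849, 6, 9, 146, 806127, 0, 0, 0, 0, 0, 0⟩))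
    (.leaf (.box ⟨119, -5, -512, 23, 37, 85, 178392, 0, 0, 0, 0, 1521342509, 0⟩ ⟨0, 0, 0, 0, 0, 0, 243888, 0, 0, 0, 0, 0, 0⟩ ⟨0, 0, 0, 0, 0, 0, 243888, 0, 0, 0, 0, 0, 0⟩ ⟨0, 0, 0, 0, 0, 0, 385374, 0, 0, 0, 0, 0, 0⟩ ⟨0, 0, 0, 0, 0, 0, 385374, 0, 0, 0, 0, 0, 0⟩ ⟨111, -1, -618, 6, 9, 110, 917841, 0, 0, 0, 0, 560654028, 0⟩)))
    (.leaf (.box ⟨449, -9, -512, 64, 19, 139, 300825, 0, 0, 0, 0, 17531751948, 0⟩ ⟨0, 0, 0, 0, 0, 0, 407399, 0, 0, 0, 0, 0, 0⟩ ⟨0, 0, 0, 0, 0, 0, 407399, 0, 0, 0, 0, 0, 0⟩ ⟨0, 0, 0, 0, 0, 0, 630913, 0, 0, 0, 0, 0, 0⟩ ⟨0, 0, 0, 0, 0, 0, 630913, 0, 0, 0, 0, 0, 0⟩ ⟨308, -2, -512, 13, 4, 130, 1397796, 0, 0, 0, 0, 6815138967, 0⟩)))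
    (.leaf (.skip 8 0)))

/-- A piece of the tree. -/
noncomputable def tree31 : Tree LeafX :=
  .s2
    (.s0
    (.s0
    (.leaf (.box ⟨80, -14, -512, 27, 52, 81, 149004, 0, 0, 0, 0, 0, 0⟩ ⟨0, 0, 0, 0, 0, 0, 207579, 0, 0, 0, 0, 0, 0⟩ ⟨0, 0, 0, 0, 0, 0, 207579, 0, 0, 0, 0, 0, 0⟩ ⟨0, 0, 0, 0, 0, 0, 342034, 0, 0, 0, 0, 0, 0⟩ ⟨0, 0, 0, 0, 0, 0, 342034, 0, 0, 0, 0, 0, 0⟩ ⟨84, -3, -667, 6, 11, 121, 970953, 0, 0, 0, 0, 0, 0⟩))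
    (.leaf (.box ⟨64, -16, -512, 36, 50, 89, 196624, 0, 0, 0, 0, 0, 0⟩ ⟨0, 0, 0, 0, 0, 0, 273155, 0, 0, 0, 0, 0, 0⟩ ⟨0, 0, 0, 0, 0, 0, 273155, 0, 0, 0, 0, 0, 0⟩ ⟨0, 0, 0, 0, 0, 0, 447223, 0, 0, 0, 0, 0, 0⟩ ⟨0, 0, 0, 0, 0, 0, 447223, 0, 0, 0, 0, 0, 0⟩ ⟨64, -2, -535, 6, 9, 104, 1232882, 0, 0, 0, 0, 0, 0⟩)))
    (.s2
    (.leaf (.box ⟨129, -16, -512, 41, 45, 112, 262221, 0, 0, 0, 0, 0, 0⟩ ⟨0, 0, 0, 0, 0, 0, 362843, 0, 0, 0, 0, 0, 0⟩ ⟨0, 0, 0, 0, 0, 0, 362843, 0, 0, 0, 0, 0, 0⟩ ⟨0, 0, 0, 0, 0, 0, 588772, 0, 0, 0, 0, 0, 0⟩ ⟨0, 0, 0, 0, 0, 0, 588772, 0, 0, 0, 0, 0, 0⟩ ⟨92, -3, -512, 7, 8, 116, 1560333, 0, 0, 0, 0, 0, 0⟩))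
    (.leaf (.box ⟨137, -15, -512, 45, 48, 111, 305417, 0, 0, 0, 0, 2078415638, 0⟩ ⟨0, 0, 0, 0, 0, 0, 421712, 0, 0, 0, 0, 0, 0⟩ ⟨0, 0, 0, 0, 0, 0, 421712, 0, 0, 0, 0, 0, 0⟩ ⟨0, 0, 0, 0, 0, 0, 681027, 0, 0, 0, 0, 0, 0⟩ ⟨0, 0, 0, 0, 0, 0, 681027, 0, 0, 0, 0, 0, 0⟩ ⟨100, -3, -512, 9, 8, 117, 1768496, 0, 0, 0, 0, 0, 0⟩))))
    (.leaf (.skip 8 0))

/-- A piece of the tree. -/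
noncomputable def tree32 : Tree LeafX :=
  .s1
    (.s2
    (.s0
    (.s2
    (.s1
    (.leaf (.box ⟨424, 2, -512, 58, -19, 238, 446552, 0, 0, 0, 0, 0, 0⟩ ⟨0, 0, 0, 0, 0, 0, 601962, 0, 0, 0, 0, 0, 0⟩ ⟨0, 0, 0, 0, 0, 0, 601962, 0, 0, 0, 0, 0, 0⟩ ⟨0, 0, 0, 0, 0, 0, 923284, 0, 0, 0, 0, 0, 0⟩ ⟨0, 0, 0, 0, 0, 0, 923284, 0, 0, 0, 0, 0, 0⟩ ⟨366, 0, -512, 13, -4, 202, 1980409, 0, 0, 0, 0, 0, 0⟩))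
    (.leaf (.box ⟨316, -5, -512, 51, -5, 208, 447413, 0, 0, 0, 0, 0, 0⟩ ⟨0, 0, 0, 0, 0, 0, 606448, 0, 0, 0, 0, 0, 0⟩ ⟨0, 0, 0, 0, 0, 0, 606448, 0, 0, 0, 0, 0, 0⟩ ⟨0, 0, 0, 0, 0, 0, 940890, 0, 0, 0, 0, 0, 0⟩ ⟨0, 0, 0, 0, 0, 0, 940890, 0, 0, 0, 0, 0, 0⟩ ⟨236, -1, -512, 9, -1, 179, 2097755, 0, 0, 0, 0, 0, 0⟩)))
    (.s1
    (.leaf (.box ⟨512, -1, -222, 60, -25, 183, 472304, 0, 0, 0, 0, 0, 0⟩ ⟨0, 0, 0, 0, 0, 0, 634834, 0, 0, 0, 0, 0, 0⟩ ⟨0, 0, 0, 0, 0, 0, 634834, 0, 0, 0, 0, 0, 0⟩ ⟨0, 0, 0, 0, 0, 0, 967912, 0, 0, 0, 0, 0, 0⟩ ⟨0, 0, 0, 0, 0, 0, 967912, 0, 0, 0, 0, 0, 0⟩ ⟨512, 0, -346, 15, -6, 194, 2036293, 0, 0, 0, 0, 0, 0⟩))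
    (.leaf (.box ⟨512, -9, -484, 71, -10, 241, 492167, 0, 0, 0, 0, 0, 0⟩ ⟨0, 0, 0, 0, 0, 0, 668355, 0, 0, 0, 0, 0, 0⟩ ⟨0, 0, 0, 0, 0, 0, 668355, 0, 0, 0, 0, 0, 0⟩ ⟨0, 0, 0, 0, 0, 0, 1041021, 0, 0, 0, 0, 0, 0⟩ ⟨0, 0, 0, 0, 0, 0, 1041021, 0, 0, 0, 0, 0, 0⟩ ⟨356, -2, -512, 13, -1, 204, 2353064, 0, 0, 0, 0, 0, 0⟩))))
    (.s2
    (.leaf (.box ⟨512, 3, -142, 74, -45, 221, 740126, 0, 0, 0, 0, 0, 0⟩ ⟨0, 0, 0, 0, 0, 0, 988468, 0, 0, 0, 0, 0, 0⟩ ⟨0, 0, 0, 0, 0, 0, 988468, 0, 0, 0, 0, 0, 0⟩ ⟨0, 0, 0, 0, 0, 0, 1487624, 0, 0, 0, 0, 0, 0⟩ ⟨0, 0, 0, 0, 0, 0, 1487624, 0, 0, 0, 0, 0, 0⟩ ⟨512, 1, -203, 16, -10, 192, 3005176, 0, 0, 0, 0, 0, 0⟩))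
    (.leaf (.box ⟨512, 0, 77, 56, -32, 116, 750286, 0, 0, 0, 0, 15898397023, 0⟩ ⟨0, 0, 0, 0, 0, 0, 1002987, 0, 0, 0, 0, 0, 0⟩ ⟨0, 0, 0, 0, 0, 0, 1002987, 0, 0, 0, 0, 0, 0⟩ ⟨0, 0, 0, 0, 0, 0, 1512355, 0, 0, 0, 0, 0, 0⟩ ⟨0, 0, 0, 0, 0, 0, 1512355, 0, 0, 0, 0, 0, 0⟩ ⟨512, 0, 6, 13, -7, 103, 3072968, 0, 0, 0, 0, 56832349515, 18829208446⟩))))
    (.leaf (.skip 8 0)))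
    (.s0
    (.s2
    (.leaf (.box ⟨315, -19, -512, 70, 31, 168, 461204, 246032035, 0, 0, 0, 15900801146, 0⟩ ⟨0, 0, 0, 0, 0, 0, 632332, 0, 0, 0, 0, 0, 0⟩ ⟨0, 0, 0, 0, 0, 0, 632332, 0, 0, 0, 0, 0, 0⟩ ⟨0, 0, 0, 0, 0, 0, 1005372, 0, 0, 0, 0, 0, 0⟩ ⟨0, 0, 0, 0, 0, 0, 1005372, 0, 0, 0, 0, 0, 0⟩ ⟨231, -3, -512, 12, 6, 158, 2451777, 0, 0, 0, 0, 0, 0⟩))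
    (.leaf (.skip 8 0)))
    (.leaf (.skip 8 0)))

theorem parts1 :
    (runPathS conQ supQ (fun n Qs i d x => leafR conQ seg n Qs i d x) [.d0 true, .d1 false, .d2 true, .d0 false, .d1 true] tree22 0 0 0
      (joinS (lay.B * lay.size) rootQ) = true) ∧
    (runPathS conQ supQ (fun n Qs i d x => leafR conQ seg n Qs i d x) [.d0 true, .d1 false, .d2 true, .d0 true] tree23 0 0 0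
      (joinS (lay.B * lay.size) rootQ) = true) ∧
    (runPathS conQ supQ (fun n Qs i d x => leafR conQ seg n Qs i d x) [.d0 true, .d1 true, .d2 false, .d0 false, .d1 false, .d0 false, .d0 false, .d2 false] tree24 0 0 0
      (joinS (lay.B * lay.size) rootQ) = true) ∧
    (runPathS conQ supQ (fun n Qs i d x => leafR conQ seg n Qs i d x) [.d0 true, .d1 true, .d2 false, .d0 false, .d1 false, .d0 false, .d0 false, .d2 true] tree25 0 0 0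
      (joinS (lay.B * lay.size) rootQ) = true) ∧
    (runPathS conQ supQ (fun n Qs i d x => leafR conQ seg n Qs i d x) [.d0 true, .d1 true, .d2 false, .d0 false, .d1 false, .d0 false, .d0 true] tree26 0 0 0
      (joinS (lay.B * lay.size) rootQ) = true) ∧
    (runPathS conQ supQ (fun n Qs i d x => leafR conQ seg n Qs i d x) [.d0 true, .d1 true, .d2 false, .d0 false, .d1 false, .d0 true] tree27 0 0 0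
      (joinS (lay.B * lay.size) rootQ) = true) ∧
    (runPathS conQ supQ (fun n Qs i d x => leafR conQ seg n Qs i d x) [.d0 true, .d1 true, .d2 false, .d0 false, .d1 true] tree28 0 0 0
      (joinS (lay.B * lay.size) rootQ) = true) ∧
    (runPathS conQ supQ (fun n Qs i d x => leafR conQ seg n Qs i d x) [.d0 true, .d1 true, .d2 false, .d0 true] tree29 0 0 0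
      (joinS (lay.B * lay.size) rootQ) = true) ∧
    (runPathS conQ supQ (fun n Qs i d x => leafR conQ seg n Qs i d x) [.d0 true, .d1 true, .d2 true, .d0 false, .d1 false] tree30 0 0 0
      (joinS (lay.B * lay.size) rootQ) = true) ∧
    (runPathS conQ supQ (fun n Qs i d x => leafR conQ seg n Qs i d x) [.d0 true, .d1 true, .d2 true, .d0 false, .d1 true] tree31 0 0 0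
      (joinS (lay.B * lay.size) rootQ) = true) ∧
    (runPathS conQ supQ (fun n Qs i d x => leafR conQ seg n Qs i d x) [.d0 true, .d1 true, .d2 true, .d0 true] tree32 0 0 0
      (joinS (lay.B * lay.size) rootQ) = true) :=
  ⟨by decide +kernel,
  by decide +kernel,
  by decide +kernel,
  by decide +kernel,
  by decide +kernel,
  by decide +kernel,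
  by decide +kernel,
  by decide +kernel,
  by decide +kernel,
  by decide +kernel,
  by decide +kernel⟩

end Vale.Agent.P098.Six.S17
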